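import Crest.Agent.R163.Q3.D.P0.S0
import Crest.Agent.R163.Q3.D.P0.H

set_option autoImplicit false
set_option maxRecDepth 100000
set_option linter.all false
set_option Elab.async false

namespace Crest.Agent.R163.P0

theorem p0_7_1 : Ok2 par f7 (((Box3.unit.l 1).r 0).l 1) (selB2 0 (selB2 0 (selB2 0 (selB2 0 C0 4504336728715263) 33506550) 20) 56) :=
  Ok2.run hw hf7 ⟨373,19,19,16,13⟩ 58
    (.split 0 (.part 3 (.chk false 1024) (.split 2 (.chk false 0) (.split 1 (.chk false 0) (.chk false 0)))) (.part 4 (.chk false 0) (.split 1 (.chk false 1024) (.chk false 1024))))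
    (by decide +kernel)

theorem p0_7_2 : Ok2 par f7 ((((Box3.unit.l 1).r 0).r 1).l 2) (selB2 0 (selB2 0 (selB2 0 (selB2 0 C0 4504336728715263) 33506550) 20) 39) :=
  Ok2.run hw hf7 ⟨352,19,19,16,13⟩ 58
    (.part 1 (.chk false 0) (.split 1 (.chk false 0) (.chk false 0)))
    (by decide +kernel)

theorem p0_7_3 : Ok2 par f7 ((((Box3.unit.l 1).r 0).r 1).r 2) (selB2 0 (selB2 0 (selB2 0 (selB2 0 C0 4504336728715263) 33506550) 20) 39) :=
  Ok2.run hw hf7 ⟨432,19,19,16,13⟩ 58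
    (.split 1 (.part 1 (.chk false 0) (.split 0 (.chk false 0) (.split 1 (.split 0 (.chk false 0) (.split 1 (.chk false 0) (.chk false 0))) (.chk false 0)))) (.chk false 0))
    (by decide +kernel)

theorem p0_7_4 : Ok2 par f7 (((Box3.unit.l 1).r 0).r 1) (selB2 1 (selB2 0 (selB2 0 (selB2 0 C0 4504336728715263) 33506550) 20) 39) :=
  Ok2.run hw hf7 ⟨309,19,19,16,13⟩ 58
    (.chk false 1024)
    (by decide +kernel)

theorem p0_7_5 : Ok2 par f7 ((Box3.unit.l 1).r 0) (selB2 1 (selB2 0 (selB2 0 C0 4504336728715263) 33506550) 20) :=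
  Ok2.run hw hf7 ⟨296,19,19,16,13⟩ 58
    (.chk false 0)
    (by decide +kernel)

theorem p0_7_6 : Ok2 par f7 ((Box3.unit.l 1).l 0) (selB2 0 (selB2 0 C0 4504336728715263) 33506550) :=
  Ok2.run hw hf7 ⟨362,19,19,16,13⟩ 58
    (.part 227 (.chk false 1024) (.split 2 (.chk false 0) (.split 1 (.part 2 (.chk false 0) (.split 0 (.chk false 0) (.chk false 0))) (.chk false 0))))
    (by decide +kernel)

theorem p0_7_7 : Ok2 par f7 (Box3.unit.l 1) (selB2 1 (selB2 0 C0 4504336728715263) 33506550) :=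
  Ok2.run hw hf7 ⟨268,19,19,16,13⟩ 58
    (.chk false 2048)
    (by decide +kernel)

theorem p0_7_8 : Ok2 par f7 (((((((((((Box3.unit.r 1).r 0).l 1).r 0).r 0).r 1).r 0).r 1).r 2).r 0).l 1) (selB2 0 (selB2 0 (selB2 0 (selB2 0 C0 4504336728715263) 65289) 32752) 1) :=
  Ok2.run hw hf7 ⟨468,19,19,16,13⟩ 58
    (.chk false 1024)
    (by decide +kernel)

theorem p0_7_9 : Ok2 par f7 (((((((((((Box3.unit.r 1).r 0).l 1).r 0).r 0).r 1).r 0).r 1).r 2).r 0).r 1) (selB2 0 (selB2 0 (selB2 0 (selB2 0 C0 4504336728715263) 65289) 32752) 1) :=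
  Ok2.run hw hf7 ⟨523,19,19,16,13⟩ 58
    (.part 1 (.chk false 512) (.split 2 (.chk false 1024) (.split 0 (.chk false 1024) (.split 1 (.chk false 1024) (.chk false 1024)))))
    (by decide +kernel)

theorem p0_7_10 : Ok2 par f7 ((((((((((Box3.unit.r 1).r 0).l 1).r 0).r 0).r 1).r 0).r 1).r 2).l 0) (selB2 0 (selB2 0 (selB2 0 (selB2 0 C0 4504336728715263) 65289) 32752) 1) :=
  Ok2.run hw hf7 ⟨449,19,19,16,13⟩ 58
    (.chk false 1024)
    (by decide +kernel)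

theorem p0_7_11 : Ok2 par f7 (((((((((Box3.unit.r 1).r 0).l 1).r 0).r 0).r 1).r 0).r 1).l 2) (selB2 0 (selB2 0 (selB2 0 (selB2 0 C0 4504336728715263) 65289) 32752) 1) :=
  Ok2.run hw hf7 ⟨432,19,19,16,13⟩ 58
    (.chk false 1024)
    (by decide +kernel)

theorem p0_7_12 : Ok2 par f7 ((((((((Box3.unit.r 1).r 0).l 1).r 0).r 0).r 1).r 0).l 1) (selB2 0 (selB2 0 (selB2 0 (selB2 0 C0 4504336728715263) 65289) 32752) 1) :=
  Ok2.run hw hf7 ⟨407,19,19,16,13⟩ 58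
    (.chk false 1024)
    (by decide +kernel)

theorem p0_7_13 : Ok2 par f7 (((((((Box3.unit.r 1).r 0).l 1).r 0).r 0).r 1).l 0) (selB2 0 (selB2 0 (selB2 0 (selB2 0 C0 4504336728715263) 65289) 32752) 1) :=
  Ok2.run hw hf7 ⟨389,19,19,16,13⟩ 58
    (.chk false 1024)
    (by decide +kernel)

theorem p0_7_14 : Ok2 par f7 ((((((Box3.unit.r 1).r 0).l 1).r 0).r 0).r 1) (selB2 1 (selB2 0 (selB2 0 (selB2 0 C0 4504336728715263) 65289) 32752) 1) :=
  Ok2.run hw hf7 ⟨372,19,19,16,13⟩ 58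
    (.chk false 256)
    (by decide +kernel)

theorem p0_7_15 : Ok2 par f7 ((((((Box3.unit.r 1).r 0).l 1).r 0).r 0).l 1) (selB2 0 (selB2 0 (selB2 0 C0 4504336728715263) 65289) 32752) :=
  Ok2.run hw hf7 ⟨366,19,19,16,13⟩ 58
    (.chk false 1024)
    (by decide +kernel)

theorem p0_7_16 : Ok2 par f7 (((((Box3.unit.r 1).r 0).l 1).r 0).l 0) (selB2 0 (selB2 0 (selB2 0 C0 4504336728715263) 65289) 32752) :=
  Ok2.run hw hf7 ⟨347,19,19,16,13⟩ 58
    (.chk false 1024)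
    (by decide +kernel)

theorem p0_7_17 : Ok2 par f7 ((((Box3.unit.r 1).r 0).l 1).l 0) (selB2 0 (selB2 0 (selB2 0 C0 4504336728715263) 65289) 32752) :=
  Ok2.run hw hf7 ⟨323,19,19,16,13⟩ 58
    (.chk false 1024)
    (by decide +kernel)

theorem p0_7_18 : Ok2 par f7 (((Box3.unit.r 1).r 0).l 1) (selB2 1 (selB2 0 (selB2 0 C0 4504336728715263) 65289) 32752) :=
  Ok2.run hw hf7 ⟨309,19,19,16,13⟩ 58
    (.chk false 2048)
    (by decide +kernel)

theorem p0_7_19 : Ok2 par f7 (((((((Box3.unit.r 1).r 0).r 1).r 0).r 0).l 1).l 0) (selB2 0 (selB2 0 (selB2 0 (selB2 0 C0 4504336728715263) 65289) 24655) 61) :=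
  Ok2.run hw hf7 ⟨393,19,19,16,13⟩ 58
    (.chk false 2048)
    (by decide +kernel)

theorem p0_7_20 : Ok2 par f7 (((((((Box3.unit.r 1).r 0).r 1).r 0).r 0).l 1).r 0) (selB2 0 (selB2 0 (selB2 0 (selB2 0 C0 4504336728715263) 65289) 24655) 61) :=
  Ok2.run hw hf7 ⟨473,19,19,16,13⟩ 58
    (.split 1 (.chk false 2048) (.part 5 (.chk false 2048) (.split 0 (.chk false 0) (.split 2 (.chk false 0) (.split 1 (.chk false 0) (.chk false 0))))))
    (by decide +kernel)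

theorem p0_7_21 : Ok2 par f7 ((((((Box3.unit.r 1).r 0).r 1).r 0).r 0).l 1) (selB2 1 (selB2 0 (selB2 0 (selB2 0 C0 4504336728715263) 65289) 24655) 61) :=
  Ok2.run hw hf7 ⟨376,19,19,16,13⟩ 58
    (.chk false 1448)
    (by decide +kernel)

theorem p0_7_22 : Ok2 par f7 ((((((Box3.unit.r 1).r 0).r 1).r 0).r 0).r 1) (selB2 0 (selB2 0 (selB2 0 C0 4504336728715263) 65289) 24655) :=
  Ok2.run hw hf7 ⟨380,19,19,16,13⟩ 58
    (.chk false 2048)
    (by decide +kernel)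

theorem p0_7_23 : Ok2 par f7 (((((Box3.unit.r 1).r 0).r 1).r 0).l 0) (selB2 0 (selB2 0 (selB2 0 C0 4504336728715263) 65289) 24655) :=
  Ok2.run hw hf7 ⟨356,19,19,16,13⟩ 58
    (.chk false 2048)
    (by decide +kernel)

theorem p0_7_24 : Ok2 par f7 ((((Box3.unit.r 1).r 0).r 1).l 0) (selB2 0 (selB2 0 (selB2 0 C0 4504336728715263) 65289) 24655) :=
  Ok2.run hw hf7 ⟨331,19,19,16,13⟩ 58
    (.chk false 2048)
    (by decide +kernel)

theorem p0_7_25 : Ok2 par f7 (((Box3.unit.r 1).r 0).r 1) (selB2 1 (selB2 0 (selB2 0 C0 4504336728715263) 65289) 24655) :=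
  Ok2.run hw hf7 ⟨318,19,19,16,13⟩ 58
    (.chk false 1024)
    (by decide +kernel)

theorem p0_7_26 : Ok2 par f7 ((Box3.unit.r 1).l 0) (selB2 0 (selB2 0 C0 4504336728715263) 65289) :=
  Ok2.run hw hf7 ⟨296,19,19,16,13⟩ 58
    (.chk false 2048)
    (by decide +kernel)

theorem p0_7_27 : Ok2 par f7 (Box3.unit.r 1) (selB2 1 (selB2 0 C0 4504336728715263) 65289) :=
  Ok2.run hw hf7 ⟨268,19,19,16,13⟩ 58
    (.chk false 1024)
    (by decide +kernel)

theorem p0_7_28 : Ok2 par f7 Box3.unit (selB2 1 C0 4504336728715263) :=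
  Ok2.run hw hf7 ⟨239,19,19,16,13⟩ 58
    (.chk false 2048)
    (by decide +kernel)

theorem p0_8_0 : Ok2 par f8 ((((((Box3.unit.l 2).r 1).l 0).l 2).l 2).l 2) (selB2 0 (selB2 0 C0 35994347086282751) 510) :=
  Ok2.run hw hf8 ⟨475,19,19,16,13⟩ 58
    (.split 0 (.chk false 0) (.split 2 (.split 1 (.chk false 0) (.split 2 (.split 1 (.chk false 0) (.split 0 (.chk false 0) (.chk false 0))) (.chk false 0))) (.chk false 0)))
    (by decide +kernel)

theorem p0_8_1 : Ok2 par f8 ((((((Box3.unit.l 2).r 1).l 0).l 2).l 2).r 2) (selB2 0 (selB2 0 C0 35994347086282751) 510) :=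
  Ok2.run hw hf8 ⟨368,19,19,16,13⟩ 58
    (.chk false 0)
    (by decide +kernel)

theorem p0_8_2 : Ok2 par f8 (((((Box3.unit.l 2).r 1).l 0).l 2).r 2) (selB2 0 (selB2 0 C0 35994347086282751) 510) :=
  Ok2.run hw hf8 ⟨351,19,19,16,13⟩ 58
    (.chk false 0)
    (by decide +kernel)

theorem p0_8_3 : Ok2 par f8 ((((Box3.unit.l 2).r 1).l 0).r 2) (selB2 0 (selB2 0 C0 35994347086282751) 510) :=
  Ok2.run hw hf8 ⟨332,19,19,16,13⟩ 58
    (.chk false 0)
    (by decide +kernel)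

theorem p0_8_4 : Ok2 par f8 (((Box3.unit.l 2).r 1).l 0) (selB2 1 (selB2 0 C0 35994347086282751) 510) :=
  Ok2.run hw hf8 ⟨320,19,19,16,13⟩ 58
    (.chk false 0)
    (by decide +kernel)

theorem p0_8_5 : Ok2 par f8 (((((((Box3.unit.l 2).r 1).r 0).r 1).r 0).l 2).l 1) (selB2 0 (selB2 0 (selB2 0 C0 35994347086282751) 337) 27) :=
  Ok2.run hw hf8 ⟨398,19,19,16,13⟩ 58
    (.chk false 0)
    (by decide +kernel)

theorem p0_8_6 : Ok2 par f8 (((((((Box3.unit.l 2).r 1).r 0).r 1).r 0).l 2).r 1) (selB2 0 (selB2 0 (selB2 0 C0 35994347086282751) 337) 27) :=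
  Ok2.run hw hf8 ⟨502,19,19,16,13⟩ 58
    (.split 2 (.split 0 (.split 2 (.split 2 (.split 1 (.chk false 0) (.split 0 (.chk false 0) (.chk false 0))) (.chk false 0)) (.chk false 0)) (.chk false 0)) (.chk false 0))
    (by decide +kernel)

theorem p0_8_7 : Ok2 par f8 ((((((Box3.unit.l 2).r 1).r 0).r 1).r 0).r 2) (selB2 0 (selB2 0 (selB2 0 C0 35994347086282751) 337) 27) :=
  Ok2.run hw hf8 ⟨376,19,19,16,13⟩ 58
    (.chk false 0)
    (by decide +kernel)

theorem p0_8_8 : Ok2 par f8 (((((Box3.unit.l 2).r 1).r 0).r 1).r 0) (selB2 1 (selB2 0 (selB2 0 C0 35994347086282751) 337) 27) :=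
  Ok2.run hw hf8 ⟨364,19,19,16,13⟩ 58
    (.chk false 0)
    (by decide +kernel)

theorem p0_8_9 : Ok2 par f8 (((((Box3.unit.l 2).r 1).r 0).r 1).l 0) (selB2 0 (selB2 0 C0 35994347086282751) 337) :=
  Ok2.run hw hf8 ⟨355,19,19,16,13⟩ 58
    (.chk false 0)
    (by decide +kernel)

theorem p0_8_10 : Ok2 par f8 ((((Box3.unit.l 2).r 1).r 0).l 1) (selB2 0 (selB2 0 C0 35994347086282751) 337) :=
  Ok2.run hw hf8 ⟨333,19,19,16,13⟩ 58
    (.chk false 0)
    (by decide +kernel)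

theorem p0_8_11 : Ok2 par f8 (((Box3.unit.l 2).r 1).r 0) (selB2 1 (selB2 0 C0 35994347086282751) 337) :=
  Ok2.run hw hf8 ⟨320,19,19,16,13⟩ 58
    (.chk false 0)
    (by decide +kernel)

theorem p0_8_12 : Ok2 par f8 ((Box3.unit.l 2).l 1) (selB2 0 C0 35994347086282751) :=
  Ok2.run hw hf8 ⟨292,19,19,16,13⟩ 58
    (.chk false 0)
    (by decide +kernel)


end Crest.Agent.R163.P0
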