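import Crest.Agent.R163.Q3.D.P0.S0
import Crest.Agent.R163.Q3.D.P0.H

set_option autoImplicit false
set_option maxRecDepth 100000
set_option linter.all false
set_option Elab.async false

namespace Crest.Agent.R163.P0

theorem p0_8_13 : Ok2 par f8 (Box3.unit.r 2) (selB2 0 C0 35994347086282751) :=
  Ok2.run hw hf8 ⟨320,19,19,16,13⟩ 58
    (.part 343 (.chk false 0) (.split 1 (.chk false 0) (.split 0 (.chk false 0) (.chk false 0))))
    (by decide +kernel)

theorem p0_8_14 : Ok2 par f8 Box3.unit (selB2 1 C0 35994347086282751) :=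
  Ok2.run hw hf8 ⟨241,19,19,16,13⟩ 58
    (.chk false 2048)
    (by decide +kernel)

theorem p0_9_0 : Ok2 par f9 Box3.unit (selB2 1 C0 36017527024779263) :=
  Ok2.run hw hf9 ⟨240,19,19,16,13⟩ 58
    (.chk false 2048)
    (by decide +kernel)

theorem p0_9_1 : Ok2 par f9 Box3.unit (selB2 0 C0 36017527024779263) :=
  Ok2.run hw hf9 ⟨297,19,19,16,13⟩ 58
    (.split 1 (.chk false 0) (.split 0 (.chk false 0) (.chk false 0)))
    (by decide +kernel)

theorem p0_10_0 : Ok2 par f10 Box3.unit (selB2 1 C0 36026323117801471) :=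
  Ok2.run hw hf10 ⟨238,19,19,13,13⟩ 58
    (.chk false 2048)
    (by decide +kernel)

theorem p0_10_1 : Ok2 par f10 Box3.unit (selB2 0 C0 36026323117801471) :=
  Ok2.run hw hf10 ⟨295,19,19,13,13⟩ 58
    (.split 1 (.chk false 0) (.split 0 (.chk false 0) (.chk false 0)))
    (by decide +kernel)

theorem p0_11_0 : Ok2 par f11 ((Box3.unit.r 1).l 0) (selB2 0 C0 36025133411860479) :=
  Ok2.run hw hf11 ⟨295,19,19,13,13⟩ 58
    (.chk false 0)
    (by decide +kernel)

theorem p0_11_1 : Ok2 par f11 ((Box3.unit.r 1).r 0) (selB2 0 C0 36025133411860479) :=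
  Ok2.run hw hf11 ⟨379,19,19,13,13⟩ 58
    (.part 32 (.chk false 0) (.split 1 (.chk false 0) (.split 0 (.chk false 0) (.part 16 (.chk false 0) (.split 1 (.chk false 0) (.split 0 (.chk false 0) (.chk false 0)))))))
    (by decide +kernel)

theorem p0_11_2 : Ok2 par f11 (Box3.unit.l 1) (selB2 0 C0 36025133411860479) :=
  Ok2.run hw hf11 ⟨266,19,19,13,13⟩ 58
    (.chk false 0)
    (by decide +kernel)

theorem p0_11_3 : Ok2 par f11 Box3.unit (selB2 1 C0 36025133411860479) :=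
  Ok2.run hw hf11 ⟨238,19,19,13,13⟩ 58
    (.chk false 2048)
    (by decide +kernel)

theorem p0_12_0 : Ok2 par f12 Box3.unit C0 :=
  Ok2.run hw hf12 ⟨243,19,19,16,13⟩ 58
    (.chk false 2048)
    (by decide +kernel)

theorem p0_13_0 : Ok2 par f13 Box3.unit C0 :=
  Ok2.run hw hf13 ⟨238,19,19,13,13⟩ 58
    (.chk false 2048)
    (by decide +kernel)

theorem p0_14_0 : Ok2 par f14 Box3.unit (selB2 1 C0 36028796680798207) :=
  Ok2.run hw hf14 ⟨239,19,19,16,13⟩ 58
    (.chk false 2048)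
    (by decide +kernel)

theorem p0_14_1 : Ok2 par f14 Box3.unit (selB2 0 C0 36028796680798207) :=
  Ok2.run hw hf14 ⟨340,19,19,16,13⟩ 58
    (.split 0 (.chk false 0) (.split 1 (.chk false 0) (.part 1 (.chk false 0) (.split 0 (.chk false 0) (.split 1 (.chk false 0) (.chk false 0))))))
    (by decide +kernel)

theorem p0_15_0 : Ok2 par f15 ((((Box3.unit.l 2).r 1).l 2).l 0) (selB2 1 (selB2 0 (selB2 0 (selB2 0 C0 31586768297918463) 7) 1) 61) :=
  Ok2.run hw hf15 ⟨342,19,19,16,13⟩ 58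
    (.chk false 0)
    (by decide +kernel)

theorem p0_15_1 : Ok2 par f15 ((((Box3.unit.l 2).r 1).l 2).l 0) (selB2 0 (selB2 0 (selB2 0 (selB2 0 C0 31586768297918463) 7) 1) 61) :=
  Ok2.run hw hf15 ⟨441,19,19,16,13⟩ 58
    (.split 2 (.split 2 (.split 2 (.split 2 (.split 2 (.split 0 (.chk false 0) (.chk false 0)) (.chk false 0)) (.chk false 0)) (.chk false 0)) (.chk false 0)) (.chk false 0))
    (by decide +kernel)

theorem p0_15_2 : Ok2 par f15 ((((((((Box3.unit.l 2).r 1).l 2).r 0).l 2).l 0).r 1).l 2) (selB2 0 (selB2 0 (selB2 0 (selB2 0 (selB2 0 C0 31586768297918463) 7) 1) 15) 1) :=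
  Ok2.run hw hf15 ⟨514,19,19,16,13⟩ 58
    (.split 0 (.chk false 0) (.split 2 (.split 1 (.chk false 0) (.split 2 (.split 2 (.split 0 (.chk false 0) (.chk false 0)) (.chk false 0)) (.chk false 0))) (.chk false 0)))
    (by decide +kernel)

theorem p0_15_3 : Ok2 par f15 ((((((((Box3.unit.l 2).r 1).l 2).r 0).l 2).l 0).r 1).r 2) (selB2 0 (selB2 0 (selB2 0 (selB2 0 (selB2 0 C0 31586768297918463) 7) 1) 15) 1) :=
  Ok2.run hw hf15 ⟨408,19,19,16,13⟩ 58
    (.chk false 0)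
    (by decide +kernel)

theorem p0_15_4 : Ok2 par f15 (((((((Box3.unit.l 2).r 1).l 2).r 0).l 2).l 0).l 1) (selB2 0 (selB2 0 (selB2 0 (selB2 0 (selB2 0 C0 31586768297918463) 7) 1) 15) 1) :=
  Ok2.run hw hf15 ⟨385,19,19,16,13⟩ 58
    (.chk false 0)
    (by decide +kernel)

theorem p0_15_5 : Ok2 par f15 ((((((Box3.unit.l 2).r 1).l 2).r 0).l 2).l 0) (selB2 1 (selB2 0 (selB2 0 (selB2 0 (selB2 0 C0 31586768297918463) 7) 1) 15) 1) :=
  Ok2.run hw hf15 ⟨371,19,19,16,13⟩ 58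
    (.chk false 0)
    (by decide +kernel)

theorem p0_15_6 : Ok2 par f15 ((((((Box3.unit.l 2).r 1).l 2).r 0).l 2).r 0) (selB2 1 (selB2 0 (selB2 0 (selB2 0 (selB2 0 C0 31586768297918463) 7) 1) 15) 2) :=
  Ok2.run hw hf15 ⟨380,19,19,16,13⟩ 58
    (.chk false 0)
    (by decide +kernel)

theorem p0_15_7 : Ok2 par f15 ((((((Box3.unit.l 2).r 1).l 2).r 0).l 2).r 0) (selB2 0 (selB2 0 (selB2 0 (selB2 0 (selB2 0 C0 31586768297918463) 7) 1) 15) 2) :=
  Ok2.run hw hf15 ⟨483,19,19,16,13⟩ 58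
    (.split 2 (.split 2 (.split 1 (.chk false 0) (.split 2 (.split 2 (.split 0 (.chk false 0) (.chk false 0)) (.chk false 0)) (.chk false 0))) (.chk false 0)) (.chk false 0))
    (by decide +kernel)

theorem p0_15_8 : Ok2 par f15 (((((Box3.unit.l 2).r 1).l 2).r 0).r 2) (selB2 0 (selB2 0 (selB2 0 (selB2 0 C0 31586768297918463) 7) 1) 15) :=
  Ok2.run hw hf15 ⟨356,19,19,16,13⟩ 58
    (.chk false 0)
    (by decide +kernel)

theorem p0_15_9 : Ok2 par f15 ((((Box3.unit.l 2).r 1).l 2).r 0) (selB2 1 (selB2 0 (selB2 0 (selB2 0 C0 31586768297918463) 7) 1) 15) :=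
  Ok2.run hw hf15 ⟨342,19,19,16,13⟩ 58
    (.chk false 0)
    (by decide +kernel)

theorem p0_15_10 : Ok2 par f15 (((Box3.unit.l 2).r 1).r 2) (selB2 0 (selB2 0 (selB2 0 C0 31586768297918463) 7) 1) :=
  Ok2.run hw hf15 ⟨336,19,19,16,13⟩ 58
    (.part 31 (.chk false 0) (.split 0 (.chk false 0) (.chk false 0)))
    (by decide +kernel)

theorem p0_15_11 : Ok2 par f15 ((Box3.unit.l 2).r 1) (selB2 1 (selB2 0 (selB2 0 C0 31586768297918463) 7) 1) :=
  Ok2.run hw hf15 ⟨296,19,19,16,13⟩ 58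
    (.chk false 0)
    (by decide +kernel)

theorem p0_15_12 : Ok2 par f15 ((Box3.unit.l 2).l 1) (selB2 0 (selB2 0 C0 31586768297918463) 7) :=
  Ok2.run hw hf15 ⟨296,19,19,16,13⟩ 58
    (.chk false 0)
    (by decide +kernel)

theorem p0_15_13 : Ok2 par f15 (Box3.unit.r 2) (selB2 0 (selB2 0 C0 31586768297918463) 7) :=
  Ok2.run hw hf15 ⟨325,19,19,16,13⟩ 58
    (.part 126 (.chk false 0) (.split 1 (.chk false 0) (.split 0 (.chk false 0) (.chk false 0))))
    (by decide +kernel)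

theorem p0_15_14 : Ok2 par f15 Box3.unit (selB2 1 (selB2 0 C0 31586768297918463) 7) :=
  Ok2.run hw hf15 ⟨288,25,25,16,14⟩ 58
    (.chk true 0)
    (by decide +kernel)

theorem p0_15_15 : Ok2 par f15 Box3.unit (selB2 1 C0 31586768297918463) :=
  Ok2.run hw hf15 ⟨246,19,19,16,13⟩ 58
    (.chk false 1024)
    (by decide +kernel)

theorem p0_16_0 : Ok2 par f16 ((((Box3.unit.l 0).r 1).l 0).l 1) (selB2 0 (selB2 0 (selB2 0 (selB2 0 (selB2 0 C0 5631696812638207) 7) 1936) 80) 17) :=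
  Ok2.run hw hf16 ⟨331,19,19,16,13⟩ 58
    (.chk false 0)
    (by decide +kernel)


end Crest.Agent.R163.P0
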