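import Crest.Agent.R163.Q3.D.P0.S0
import Crest.Agent.R163.Q3.D.P0.H

set_option autoImplicit false
set_option maxRecDepth 100000
set_option linter.all false
set_option Elab.async false

namespace Crest.Agent.R163.P0

theorem p0_16_1 : Ok2 par f16 ((((Box3.unit.l 0).r 1).l 0).r 1) (selB2 0 (selB2 0 (selB2 0 (selB2 0 (selB2 0 C0 5631696812638207) 7) 1936) 80) 17) :=
  Ok2.run hw hf16 ⟨421,19,19,16,13⟩ 58
    (.part 1 (.chk false 0) (.split 0 (.split 2 (.chk false 0) (.split 1 (.chk false 0) (.part 2 (.chk false 0) (.split 0 (.chk false 0) (.chk false 0))))) (.chk false 0)))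
    (by decide +kernel)

theorem p0_16_2 : Ok2 par f16 (((Box3.unit.l 0).r 1).l 0) (selB2 1 (selB2 0 (selB2 0 (selB2 0 (selB2 0 C0 5631696812638207) 7) 1936) 80) 17) :=
  Ok2.run hw hf16 ⟨318,19,19,16,13⟩ 58
    (.chk false 0)
    (by decide +kernel)

theorem p0_16_3 : Ok2 par f16 ((((Box3.unit.l 0).r 1).r 0).l 1) (selB2 0 (selB2 0 (selB2 0 (selB2 0 (selB2 0 C0 5631696812638207) 7) 1936) 80) 15) :=
  Ok2.run hw hf16 ⟨322,19,19,16,13⟩ 58
    (.chk false 0)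
    (by decide +kernel)

theorem p0_16_4 : Ok2 par f16 ((((Box3.unit.l 0).r 1).r 0).r 1) (selB2 0 (selB2 0 (selB2 0 (selB2 0 (selB2 0 C0 5631696812638207) 7) 1936) 80) 15) :=
  Ok2.run hw hf16 ⟨441,19,19,16,13⟩ 58
    (.split 2 (.chk false 0) (.split 0 (.chk false 0) (.split 1 (.chk false 0) (.split 2 (.chk false 0) (.split 0 (.chk false 0) (.split 1 (.chk false 0) (.chk false 0)))))))
    (by decide +kernel)

theorem p0_16_5 : Ok2 par f16 (((Box3.unit.l 0).r 1).r 0) (selB2 1 (selB2 0 (selB2 0 (selB2 0 (selB2 0 C0 5631696812638207) 7) 1936) 80) 15) :=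
  Ok2.run hw hf16 ⟨309,19,19,16,13⟩ 58
    (.chk false 0)
    (by decide +kernel)

theorem p0_16_6 : Ok2 par f16 ((Box3.unit.l 0).r 1) (selB2 1 (selB2 0 (selB2 0 (selB2 0 C0 5631696812638207) 7) 1936) 80) :=
  Ok2.run hw hf16 ⟨296,19,19,16,13⟩ 58
    (.chk false 0)
    (by decide +kernel)

theorem p0_16_7 : Ok2 par f16 ((Box3.unit.l 0).l 1) (selB2 0 (selB2 0 (selB2 0 C0 5631696812638207) 7) 1936) :=
  Ok2.run hw hf16 ⟨296,19,19,16,13⟩ 58
    (.chk false 0)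
    (by decide +kernel)

theorem p0_16_8 : Ok2 par f16 (Box3.unit.l 0) (selB2 1 (selB2 0 (selB2 0 C0 5631696812638207) 7) 1936) :=
  Ok2.run hw hf16 ⟨267,19,19,16,13⟩ 58
    (.chk false 0)
    (by decide +kernel)

theorem p0_16_9 : Ok2 par f16 ((((((Box3.unit.r 0).r 1).l 0).r 1).r 2).l 0) (selB2 0 (selB2 0 (selB2 0 (selB2 0 (selB2 0 C0 5631696812638207) 7) 3103) 1) 2) :=
  Ok2.run hw hf16 ⟨388,19,19,16,13⟩ 58
    (.part 6 (.chk false 0) (.split 1 (.chk false 0) (.chk false 0)))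
    (by decide +kernel)

theorem p0_16_10 : Ok2 par f16 ((((((Box3.unit.r 0).r 1).l 0).r 1).r 2).r 0) (selB2 0 (selB2 0 (selB2 0 (selB2 0 (selB2 0 C0 5631696812638207) 7) 3103) 1) 2) :=
  Ok2.run hw hf16 ⟨466,19,19,16,13⟩ 58
    (.part 3 (.chk false 0) (.split 1 (.chk false 0) (.split 0 (.split 2 (.chk false 0) (.split 1 (.chk false 0) (.split 0 (.chk false 0) (.chk false 0)))) (.chk false 0))))
    (by decide +kernel)

theorem p0_16_11 : Ok2 par f16 (((((Box3.unit.r 0).r 1).l 0).r 1).l 2) (selB2 0 (selB2 0 (selB2 0 (selB2 0 (selB2 0 C0 5631696812638207) 7) 3103) 1) 2) :=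
  Ok2.run hw hf16 ⟨353,19,19,16,13⟩ 58
    (.chk false 0)
    (by decide +kernel)

theorem p0_16_12 : Ok2 par f16 ((((Box3.unit.r 0).r 1).l 0).l 1) (selB2 0 (selB2 0 (selB2 0 (selB2 0 (selB2 0 C0 5631696812638207) 7) 3103) 1) 2) :=
  Ok2.run hw hf16 ⟨322,19,19,16,13⟩ 58
    (.chk false 0)
    (by decide +kernel)

theorem p0_16_13 : Ok2 par f16 (((Box3.unit.r 0).r 1).l 0) (selB2 1 (selB2 0 (selB2 0 (selB2 0 (selB2 0 C0 5631696812638207) 7) 3103) 1) 2) :=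
  Ok2.run hw hf16 ⟨309,19,19,16,13⟩ 58
    (.chk false 0)
    (by decide +kernel)

theorem p0_16_14 : Ok2 par f16 (((Box3.unit.r 0).r 1).r 0) (selB2 0 (selB2 0 (selB2 0 (selB2 0 C0 5631696812638207) 7) 3103) 1) :=
  Ok2.run hw hf16 ⟨318,19,19,16,13⟩ 58
    (.chk false 0)
    (by decide +kernel)

theorem p0_16_15 : Ok2 par f16 ((Box3.unit.r 0).r 1) (selB2 1 (selB2 0 (selB2 0 (selB2 0 C0 5631696812638207) 7) 3103) 1) :=
  Ok2.run hw hf16 ⟨296,19,19,16,13⟩ 58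
    (.chk false 0)
    (by decide +kernel)

theorem p0_16_16 : Ok2 par f16 ((Box3.unit.r 0).l 1) (selB2 0 (selB2 0 (selB2 0 C0 5631696812638207) 7) 3103) :=
  Ok2.run hw hf16 ⟨296,19,19,16,13⟩ 58
    (.chk false 0)
    (by decide +kernel)

theorem p0_16_17 : Ok2 par f16 (Box3.unit.r 0) (selB2 1 (selB2 0 (selB2 0 C0 5631696812638207) 7) 3103) :=
  Ok2.run hw hf16 ⟨267,19,19,16,13⟩ 58
    (.chk false 0)
    (by decide +kernel)

theorem p0_16_18 : Ok2 par f16 Box3.unit (selB2 1 (selB2 0 C0 5631696812638207) 7) :=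
  Ok2.run hw hf16 ⟨281,25,25,16,14⟩ 58
    (.chk true 0)
    (by decide +kernel)

theorem p0_16_19 : Ok2 par f16 Box3.unit (selB2 1 C0 5631696812638207) :=
  Ok2.run hw hf16 ⟨239,19,19,16,13⟩ 58
    (.chk false 1024)
    (by decide +kernel)

theorem p0_17_0 : Ok2 par f17 Box3.unit (selB2 1 C0 36028795268890623) :=
  Ok2.run hw hf17 ⟨265,19,19,16,13⟩ 58
    (.chk false 569)
    (by decide +kernel)

theorem p0_17_1 : Ok2 par f17 Box3.unit (selB2 0 C0 36028795268890623) :=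
  Ok2.run hw hf17 ⟨314,25,25,16,14⟩ 58
    (.chk true 0)
    (by decide +kernel)

theorem p0_18_0 : Ok2 par f18 Box3.unit (selB2 1 C0 36028795268890623) :=
  Ok2.run hw hf18 ⟨240,19,19,13,13⟩ 58
    (.chk false 569)
    (by decide +kernel)

theorem p0_18_1 : Ok2 par f18 Box3.unit (selB2 0 C0 36028795268890623) :=
  Ok2.run hw hf18 ⟨289,25,25,13,13⟩ 58
    (.chk true 0)
    (by decide +kernel)

theorem p0_19_0 : Ok2 par f19 (((((Box3.unit.l 0).l 2).l 2).r 1).l 2) (selB2 0 (selB2 0 (selB2 0 (selB2 0 (selB2 0 (selB2 0 (selB2 0 C0 32651095528443903) 28991) 6) 1) 8) 4) 1) :=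
  Ok2.run hw hf19 ⟨496,25,25,16,14⟩ 58
    (.split 0 (.chk false 569) (.split 2 (.split 1 (.chk true 0) (.chk true 0)) (.chk true 0)))
    (by decide +kernel)

theorem p0_19_1 : Ok2 par f19 (((((Box3.unit.l 0).l 2).l 2).r 1).r 2) (selB2 0 (selB2 0 (selB2 0 (selB2 0 (selB2 0 (selB2 0 (selB2 0 C0 32651095528443903) 28991) 6) 1) 8) 4) 1) :=
  Ok2.run hw hf19 ⟨431,25,25,16,14⟩ 58
    (.chk true 0)
    (by decide +kernel)

theorem p0_19_2 : Ok2 par f19 ((((Box3.unit.l 0).l 2).l 2).r 1) (selB2 1 (selB2 0 (selB2 0 (selB2 0 (selB2 0 (selB2 0 (selB2 0 C0 32651095528443903) 28991) 6) 1) 8) 4) 1) :=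
  Ok2.run hw hf19 ⟨417,25,25,16,14⟩ 58
    (.chk true 0)
    (by decide +kernel)

theorem p0_19_3 : Ok2 par f19 ((((Box3.unit.l 0).l 2).l 2).r 1) (selB2 1 (selB2 0 (selB2 0 (selB2 0 (selB2 0 (selB2 0 C0 32651095528443903) 28991) 6) 1) 8) 4) :=
  Ok2.run hw hf19 ⟨356,19,19,16,13⟩ 58
    (.chk false 0)
    (by decide +kernel)

theorem p0_19_4 : Ok2 par f19 ((((Box3.unit.l 0).l 2).l 2).l 1) (selB2 0 (selB2 0 (selB2 0 (selB2 0 (selB2 0 C0 32651095528443903) 28991) 6) 1) 8) :=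
  Ok2.run hw hf19 ⟨417,25,25,16,14⟩ 58
    (.part 6 (.chk false 569) (.chk true 0))
    (by decide +kernel)

theorem p0_19_5 : Ok2 par f19 (((Box3.unit.l 0).l 2).r 2) (selB2 0 (selB2 0 (selB2 0 (selB2 0 (selB2 0 C0 32651095528443903) 28991) 6) 1) 8) :=
  Ok2.run hw hf19 ⟨377,25,25,16,14⟩ 58
    (.part 4 (.chk false 0) (.chk true 0))
    (by decide +kernel)

theorem p0_19_6 : Ok2 par f19 ((Box3.unit.l 0).l 2) (selB2 1 (selB2 0 (selB2 0 (selB2 0 (selB2 0 C0 32651095528443903) 28991) 6) 1) 8) :=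
  Ok2.run hw hf19 ⟨310,19,19,16,13⟩ 58
    (.chk false 0)
    (by decide +kernel)

theorem p0_19_7 : Ok2 par f19 (((Box3.unit.l 0).r 2).l 1) (selB2 0 (selB2 0 (selB2 0 (selB2 0 C0 32651095528443903) 28991) 6) 1) :=
  Ok2.run hw hf19 ⟨400,25,25,16,14⟩ 58
    (.part 10 (.chk false 569) (.part 1 (.chk true 0) (.split 0 (.chk false 0) (.chk false 0))))
    (by decide +kernel)

theorem p0_19_8 : Ok2 par f19 (((Box3.unit.l 0).r 2).r 1) (selB2 0 (selB2 0 (selB2 0 (selB2 0 C0 32651095528443903) 28991) 6) 1) :=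
  Ok2.run hw hf19 ⟨400,25,25,16,14⟩ 58
    (.part 12 (.chk false 0) (.chk true 0))
    (by decide +kernel)

theorem p0_19_9 : Ok2 par f19 (Box3.unit.l 0) (selB2 1 (selB2 0 (selB2 0 (selB2 0 C0 32651095528443903) 28991) 6) 1) :=
  Ok2.run hw hf19 ⟨343,25,25,16,14⟩ 58
    (.chk true 0)
    (by decide +kernel)

theorem p0_19_10 : Ok2 par f19 (Box3.unit.l 0) (selB2 1 (selB2 0 (selB2 0 C0 32651095528443903) 28991) 6) :=
  Ok2.run hw hf19 ⟨288,19,19,16,13⟩ 58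
    (.chk false 0)
    (by decide +kernel)

theorem p0_19_11 : Ok2 par f19 (((((Box3.unit.r 0).r 1).l 2).l 2).l 2) (selB2 0 (selB2 0 (selB2 0 (selB2 0 C0 32651095528443903) 28991) 102) 3) :=
  Ok2.run hw hf19 ⟨496,25,25,16,14⟩ 58
    (.split 0 (.split 2 (.split 1 (.chk true 0) (.chk true 0)) (.chk true 0)) (.chk true 0))
    (by decide +kernel)

theorem p0_19_12 : Ok2 par f19 (((((Box3.unit.r 0).r 1).l 2).l 2).r 2) (selB2 0 (selB2 0 (selB2 0 (selB2 0 C0 32651095528443903) 28991) 102) 3) :=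
  Ok2.run hw hf19 ⟨431,25,25,16,14⟩ 58
    (.chk true 0)
    (by decide +kernel)

theorem p0_19_13 : Ok2 par f19 ((((Box3.unit.r 0).r 1).l 2).r 2) (selB2 0 (selB2 0 (selB2 0 (selB2 0 C0 32651095528443903) 28991) 102) 3) :=
  Ok2.run hw hf19 ⟨412,25,25,16,14⟩ 58
    (.chk true 0)
    (by decide +kernel)

theorem p0_19_14 : Ok2 par f19 (((Box3.unit.r 0).r 1).r 2) (selB2 0 (selB2 0 (selB2 0 (selB2 0 C0 32651095528443903) 28991) 102) 3) :=
  Ok2.run hw hf19 ⟨401,25,25,16,14⟩ 58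
    (.chk true 0)
    (by decide +kernel)

theorem p0_19_15 : Ok2 par f19 ((Box3.unit.r 0).r 1) (selB2 1 (selB2 0 (selB2 0 (selB2 0 C0 32651095528443903) 28991) 102) 3) :=
  Ok2.run hw hf19 ⟨378,25,25,16,14⟩ 58
    (.chk true 0)
    (by decide +kernel)


end Crest.Agent.R163.P0
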