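import Crest.Agent.R163.Q3.D.P0.P0_0
import Crest.Agent.R163.Q3.D.P0.P0_1
import Crest.Agent.R163.Q3.D.P0.P0_2
import Crest.Agent.R163.Q3.D.P0.P0_3
import Crest.Agent.R163.Q3.D.P0.P0_4

set_option autoImplicit false
set_option maxRecDepth 100000
set_option linter.all false
set_option Elab.async false

namespace Crest.Agent.R163.P0

theorem o0_19 : Ok2 par f19 Box3.unit C0 :=
  (Ok2.part 32651095528443903 p0_19_19 (Ok2.part 28991 p0_19_18 (Ok2.split 0 (Ok2.part 6 p0_19_10 (Ok2.part 1 p0_19_9 (Ok2.split 2 (Ok2.part 8 p0_19_6 (Ok2.split 2 (Ok2.split 1 p0_19_4 (Ok2.part 4 p0_19_3 (Ok2.part 1 p0_19_2 (Ok2.split 2 p0_19_0 p0_19_1)))) p0_19_5)) (Ok2.split 1 p0_19_7 p0_19_8)))) (Ok2.part 102 p0_19_17 (Ok2.split 1 p0_19_16 (Ok2.part 3 p0_19_15 (Ok2.split 2 (Ok2.split 2 (Ok2.split 2 p0_19_11 p0_19_12) p0_19_13)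 p0_19_14)))))))
theorem o0_18 : Ok2 par f18 Box3.unit C0 :=
  (Ok2.part 36028795268890623 p0_18_0 p0_18_1)
theorem o0_17 : Ok2 par f17 Box3.unit C0 :=
  (Ok2.part 36028795268890623 p0_17_0 p0_17_1)
theorem o0_16 : Ok2 par f16 Box3.unit C0 :=
  (Ok2.part 5631696812638207 p0_16_19 (Ok2.part 7 p0_16_18 (Ok2.split 0 (Ok2.part 1936 p0_16_8 (Ok2.split 1 p0_16_7 (Ok2.part 80 p0_16_6 (Ok2.split 0 (Ok2.part 17 p0_16_2 (Ok2.split 1 p0_16_0 p0_16_1)) (Ok2.part 15 p0_16_5 (Ok2.split 1 p0_16_3 p0_16_4)))))) (Ok2.part 3103 p0_16_17 (Ok2.split 1 p0_16_16 (Ok2.part 1 p0_16_15 (Ok2.split 0 (Ok2.part 2 p0_16_13 (Ok2.split 1 p0_16_12 (Ok2.split 2 p0_16_11 (Ok2.split 0 p0_16_9 p0_16_10)))) p0_16_14)))))))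
theorem o0_15 : Ok2 par f15 Box3.unit C0 :=
  (Ok2.part 31586768297918463 p0_15_15 (Ok2.part 7 p0_15_14 (Ok2.split 2 (Ok2.split 1 p0_15_12 (Ok2.part 1 p0_15_11 (Ok2.split 2 (Ok2.split 0 (Ok2.part 61 p0_15_0 p0_15_1) (Ok2.part 15 p0_15_9 (Ok2.split 2 (Ok2.split 0 (Ok2.part 1 p0_15_5 (Ok2.split 1 p0_15_4 (Ok2.split 2 p0_15_2 p0_15_3))) (Ok2.part 2 p0_15_6 p0_15_7)) p0_15_8))) p0_15_10))) p0_15_13)))
theorem o0_14 : Ok2 par f14 Box3.unit C0 :=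
  (Ok2.part 36028796680798207 p0_14_0 p0_14_1)
theorem o0_13 : Ok2 par f13 Box3.unit C0 :=
  p0_13_0
theorem o0_12 : Ok2 par f12 Box3.unit C0 :=
  p0_12_0
theorem o0_11 : Ok2 par f11 Box3.unit C0 :=
  (Ok2.part 36025133411860479 p0_11_3 (Ok2.split 1 p0_11_2 (Ok2.split 0 p0_11_0 p0_11_1)))
theorem o0_10 : Ok2 par f10 Box3.unit C0 :=
  (Ok2.part 36026323117801471 p0_10_0 p0_10_1)
theorem o0_9 : Ok2 par f9 Box3.unit C0 :=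
  (Ok2.part 36017527024779263 p0_9_0 p0_9_1)
theorem o0_8 : Ok2 par f8 Box3.unit C0 :=
  (Ok2.part 35994347086282751 p0_8_14 (Ok2.split 2 (Ok2.split 1 p0_8_12 (Ok2.split 0 (Ok2.part 510 p0_8_4 (Ok2.split 2 (Ok2.split 2 (Ok2.split 2 p0_8_0 p0_8_1) p0_8_2) p0_8_3)) (Ok2.part 337 p0_8_11 (Ok2.split 1 p0_8_10 (Ok2.split 0 p0_8_9 (Ok2.part 27 p0_8_8 (Ok2.split 2 (Ok2.split 1 p0_8_5 p0_8_6) p0_8_7))))))) p0_8_13))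
theorem o0_7 : Ok2 par f7 Box3.unit C0 :=
  (Ok2.part 4504336728715263 p0_7_28 (Ok2.split 1 (Ok2.part 33506550 p0_7_7 (Ok2.split 0 p0_7_6 (Ok2.part 20 p0_7_5 (Ok2.split 1 (Ok2.part 56 p0_7_0 p0_7_1) (Ok2.part 39 p0_7_4 (Ok2.split 2 p0_7_2 p0_7_3)))))) (Ok2.part 65289 p0_7_27 (Ok2.split 0 p0_7_26 (Ok2.split 1 (Ok2.part 32752 p0_7_18 (Ok2.split 0 p0_7_17 (Ok2.split 0 p0_7_16 (Ok2.split 1 p0_7_15 (Ok2.part 1 p0_7_14 (Ok2.split 0 p0_7_13 (Ok2.split 1 p0_7_12 (Ok2.split 2 p0_7_11 (Ok2.split 0 p0_7_10 (Ok2.split 1 p0_7_8 p0_7_9)))))))))) (Ok2.part 24655 p0_7_25 (Ok2.split 0 p0_7_24 (Ok2.split 0 p0_7_23 (Ok2.split 1 (Ok2.part 61 p0_7_21 (Ok2.split 0 p0_7_19 p0_7_20)) p0_7_22)))))))))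
theorem o0_6 : Ok2 par f6 Box3.unit C0 :=
  p0_6_0
theorem o0_5 : Ok2 par f5 Box3.unit C0 :=
  (Ok2.part 22654335946719231 p0_5_10 (Ok2.split 1 p0_5_9 (Ok2.part 4416 p0_5_8 (Ok2.split 0 p0_5_7 (Ok2.split 0 p0_5_6 (Ok2.split 1 p0_5_5 (Ok2.part 511 p0_5_4 (Ok2.split 0 p0_5_3 (Ok2.split 1 (Ok2.split 1 p0_5_0 p0_5_1) p0_5_2)))))))))
theorem o0_4 : Ok2 par f4 Box3.unit C0 :=
  (Ok2.part 4679519720570879 p0_4_26 (Ok2.split 1 (Ok2.part 64767 p0_4_6 (Ok2.split 2 (Ok2.split 2 (Ok2.split 2 (Ok2.split 2 (Ok2.split 1 p0_4_0 p0_4_1) p0_4_2) p0_4_3) p0_4_4) p0_4_5)) (Ok2.part 49956 p0_4_25 (Ok2.split 0 p0_4_24 (Ok2.split 1 (Ok2.part 432 p0_4_22 (Ok2.split 0 p0_4_21 (Ok2.split 0 p0_4_20 (Ok2.split 1 p0_4_19 (Ok2.part 17 p0_4_18 (Ok2.split 2 (Ok2.split 2 (Ok2.split 0 p0_4_15 (Ok2.split 1 p0_4_14 (Ok2.part 8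 p0_4_13 (Ok2.split 2 (Ok2.split 2 (Ok2.split 0 p0_4_10 (Ok2.split 1 p0_4_9 (Ok2.part 5 p0_4_7 p0_4_8))) p0_4_11) p0_4_12)))) p0_4_16) p0_4_17)))))) p0_4_23)))))
theorem o0_3 : Ok2 par f3 Box3.unit C0 :=
  p0_3_0
theorem o0_2 : Ok2 par f2 Box3.unit C0 :=
  p0_2_0
theorem o0_1 : Ok2 par f1 Box3.unit C0 :=
  p0_1_0
theorem o0_0 : Ok2 par f0 Box3.unit C0 :=
  p0_0_0

theorem pt0 : PtAll2 par C0 :=
  PtAll2.of_okD hw (OkD2.cover [f0.dom,f1.dom,f2.dom,f3.dom,f4.dom,f5.dom,f6.dom,f7.dom,f8.dom,f9.dom,f10.dom,f11.dom,f12.dom,f13.dom,f14.dom,f15.dom,f16.dom,f17.dom,f18.dom,f19.dom]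
    (.split 0 (.split 2 (.leaf 0) (.leaf 1)) (.split 1 (.split 2 (.split 0 (.split 2 (.leaf 2) (.leaf 3)) (.split 2 (.leaf 4) (.leaf 5))) (.split 0 (.leaf 6) (.leaf 7))) (.split 0 (.split 2 (.split 2 (.leaf 8) (.leaf 9)) (.split 2 (.leaf 10) (.leaf 11))) (.split 1 (.split 2 (.split 2 (.leaf 12) (.leaf 13)) (.leaf 14)) (.split 0 (.split 2 (.leaf 15) (.leaf 16)) (.split 1 (.split 2 (.leaf 17) (.leaf 18)) (.leaf 19)))))))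
    (by decide +kernel)
    (List.forall_mem_cons.2 ⟨OkD2.of_ok o0_0, (List.forall_mem_cons.2 ⟨OkD2.of_ok o0_1, (List.forall_mem_cons.2 ⟨OkD2.of_ok o0_2, (List.forall_mem_cons.2 ⟨OkD2.of_ok o0_3, (List.forall_mem_cons.2 ⟨OkD2.of_ok o0_4, (List.forall_mem_cons.2 ⟨OkD2.of_ok o0_5, (List.forall_mem_cons.2 ⟨OkD2.of_ok o0_6, (List.forall_mem_cons.2 ⟨OkD2.of_ok o0_7, (List.forall_mem_cons.2 ⟨OkD2.of_ok o0_8, (List.forall_mem_cons.2 ⟨OkD2.of_ok o0_9, (List.forall_mem_cons.2 ⟨OkD2.of_ok o0_10, (List.forall_mem_cons.2 ⟨OkD2.of_ok o0_11, (List.forall_mem_cons.2 ⟨OkD2.of_ok o0_12, (List.forall_mem_cons.2 ⟨OkD2.of_ok o0_13, (List.forall_mem_cons.2 ⟨OkD2.of_ok o0_14, (List.forall_mem_cons.2 ⟨OkD2.of_ok o0_15, (List.forall_mem_cons.2 ⟨OkD2.of_ok o0_16, (List.forall_mem_cons.2 ⟨OkD2.of_ok o0_17, (List.forall_mem_cons.2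 ⟨OkD2.of_ok o0_18, (List.forall_mem_cons.2 ⟨OkD2.of_ok o0_19, (fun _ h => nomatch h)⟩)⟩)⟩)⟩)⟩)⟩)⟩)⟩)⟩)⟩)⟩)⟩)⟩)⟩)⟩)⟩)⟩)⟩)⟩)⟩))

end Crest.Agent.R163.P0
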