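import Crest.Agent.R163.Q3.D.P0.S0
import Crest.Agent.R163.Q3.D.P0.H

set_option autoImplicit false
set_option maxRecDepth 100000
set_option linter.all false
set_option Elab.async false

namespace Crest.Agent.R163.P0

theorem p0_0_0 : Ok2 par f0 Box3.unit C0 :=
  Ok2.run hw hf0 ⟨238,19,19,16,13⟩ 58
    (.chk false 2048)
    (by decide +kernel)

theorem p0_1_0 : Ok2 par f1 Box3.unit C0 :=
  Ok2.run hw hf1 ⟨238,19,19,16,13⟩ 58
    (.chk false 2048)
    (by decide +kernel)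

theorem p0_2_0 : Ok2 par f2 Box3.unit C0 :=
  Ok2.run hw hf2 ⟨241,19,19,16,13⟩ 58
    (.chk false 2048)
    (by decide +kernel)

theorem p0_3_0 : Ok2 par f3 Box3.unit C0 :=
  Ok2.run hw hf3 ⟨240,19,19,16,13⟩ 58
    (.chk false 2048)
    (by decide +kernel)

theorem p0_4_0 : Ok2 par f4 ((((((Box3.unit.l 1).l 2).l 2).l 2).l 2).l 1) (selB2 0 (selB2 0 C0 4679519720570879) 64767) :=
  Ok2.run hw hf4 ⟨458,19,19,16,13⟩ 58
    (.part 2 (.chk false 0) (.split 2 (.split 2 (.split 0 (.chk false 0) (.split 2 (.split 1 (.chk false 0) (.chk false 0)) (.chk false 0))) (.chk false 0)) (.chk false 0)))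
    (by decide +kernel)

theorem p0_4_1 : Ok2 par f4 ((((((Box3.unit.l 1).l 2).l 2).l 2).l 2).r 1) (selB2 0 (selB2 0 C0 4679519720570879) 64767) :=
  Ok2.run hw hf4 ⟨355,19,19,16,13⟩ 58
    (.chk false 0)
    (by decide +kernel)

theorem p0_4_2 : Ok2 par f4 (((((Box3.unit.l 1).l 2).l 2).l 2).r 2) (selB2 0 (selB2 0 C0 4679519720570879) 64767) :=
  Ok2.run hw hf4 ⟨341,19,19,16,13⟩ 58
    (.chk false 0)
    (by decide +kernel)

theorem p0_4_3 : Ok2 par f4 ((((Box3.unit.l 1).l 2).l 2).r 2) (selB2 0 (selB2 0 C0 4679519720570879) 64767) :=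
  Ok2.run hw hf4 ⟨324,19,19,16,13⟩ 58
    (.chk false 0)
    (by decide +kernel)

theorem p0_4_4 : Ok2 par f4 (((Box3.unit.l 1).l 2).r 2) (selB2 0 (selB2 0 C0 4679519720570879) 64767) :=
  Ok2.run hw hf4 ⟨305,19,19,16,13⟩ 58
    (.chk false 0)
    (by decide +kernel)

theorem p0_4_5 : Ok2 par f4 ((Box3.unit.l 1).r 2) (selB2 0 (selB2 0 C0 4679519720570879) 64767) :=
  Ok2.run hw hf4 ⟨293,19,19,16,13⟩ 58
    (.chk false 0)
    (by decide +kernel)

theorem p0_4_6 : Ok2 par f4 (Box3.unit.l 1) (selB2 1 (selB2 0 C0 4679519720570879) 64767) :=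
  Ok2.run hw hf4 ⟨271,19,19,16,13⟩ 58
    (.chk false 2048)
    (by decide +kernel)

theorem p0_4_7 : Ok2 par f4 ((((((((((((((Box3.unit.r 1).r 0).l 1).r 0).r 0).r 1).l 2).l 2).r 0).r 1).l 2).l 2).r 0).r 1) (selB2 1 (selB2 0 (selB2 0 (selB2 0 (selB2 0 (selB2 0 C0 4679519720570879) 49956) 432) 17) 8) 5) :=
  Ok2.run hw hf4 ⟨521,19,19,16,13⟩ 58
    (.chk false 569)
    (by decide +kernel)

theorem p0_4_8 : Ok2 par f4 ((((((((((((((Box3.unit.r 1).r 0).l 1).r 0).r 0).r 1).l 2).l 2).r 0).r 1).l 2).l 2).r 0).r 1) (selB2 0 (selB2 0 (selB2 0 (selB2 0 (selB2 0 (selB2 0 C0 4679519720570879) 49956) 432) 17) 8) 5) :=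
  Ok2.run hw hf4 ⟨603,19,19,16,13⟩ 58
    (.split 2 (.split 2 (.split 0 (.chk false 1024) (.split 2 (.split 1 (.chk false 1024) (.chk false 1024)) (.chk false 1024))) (.chk false 1024)) (.chk false 1024))
    (by decide +kernel)

theorem p0_4_9 : Ok2 par f4 ((((((((((((((Box3.unit.r 1).r 0).l 1).r 0).r 0).r 1).l 2).l 2).r 0).r 1).l 2).l 2).r 0).l 1) (selB2 0 (selB2 0 (selB2 0 (selB2 0 (selB2 0 C0 4679519720570879) 49956) 432) 17) 8) :=
  Ok2.run hw hf4 ⟨587,19,19,16,13⟩ 58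
    (.part 3 (.chk false 1024) (.split 2 (.split 2 (.split 0 (.chk false 569) (.split 1 (.chk false 569) (.chk false 569))) (.chk false 569)) (.chk false 569)))
    (by decide +kernel)

theorem p0_4_10 : Ok2 par f4 (((((((((((((Box3.unit.r 1).r 0).l 1).r 0).r 0).r 1).l 2).l 2).r 0).r 1).l 2).l 2).l 0) (selB2 0 (selB2 0 (selB2 0 (selB2 0 (selB2 0 C0 4679519720570879) 49956) 432) 17) 8) :=
  Ok2.run hw hf4 ⟨502,19,19,16,13⟩ 58
    (.chk false 1024)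
    (by decide +kernel)

theorem p0_4_11 : Ok2 par f4 ((((((((((((Box3.unit.r 1).r 0).l 1).r 0).r 0).r 1).l 2).l 2).r 0).r 1).l 2).r 2) (selB2 0 (selB2 0 (selB2 0 (selB2 0 (selB2 0 C0 4679519720570879) 49956) 432) 17) 8) :=
  Ok2.run hw hf4 ⟨483,19,19,16,13⟩ 58
    (.chk false 1024)
    (by decide +kernel)

theorem p0_4_12 : Ok2 par f4 (((((((((((Box3.unit.r 1).r 0).l 1).r 0).r 0).r 1).l 2).l 2).r 0).r 1).r 2) (selB2 0 (selB2 0 (selB2 0 (selB2 0 (selB2 0 C0 4679519720570879) 49956) 432) 17) 8) :=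
  Ok2.run hw hf4 ⟨466,19,19,16,13⟩ 58
    (.chk false 1024)
    (by decide +kernel)

theorem p0_4_13 : Ok2 par f4 ((((((((((Box3.unit.r 1).r 0).l 1).r 0).r 0).r 1).l 2).l 2).r 0).r 1) (selB2 1 (selB2 0 (selB2 0 (selB2 0 (selB2 0 C0 4679519720570879) 49956) 432) 17) 8) :=
  Ok2.run hw hf4 ⟨452,19,19,16,13⟩ 58
    (.chk false 0)
    (by decide +kernel)

theorem p0_4_14 : Ok2 par f4 ((((((((((Box3.unit.r 1).r 0).l 1).r 0).r 0).r 1).l 2).l 2).r 0).l 1) (selB2 0 (selB2 0 (selB2 0 (selB2 0 C0 4679519720570879) 49956) 432) 17) :=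
  Ok2.run hw hf4 ⟨450,19,19,16,13⟩ 58
    (.chk false 1024)
    (by decide +kernel)

theorem p0_4_15 : Ok2 par f4 (((((((((Box3.unit.r 1).r 0).l 1).r 0).r 0).r 1).l 2).l 2).l 0) (selB2 0 (selB2 0 (selB2 0 (selB2 0 C0 4679519720570879) 49956) 432) 17) :=
  Ok2.run hw hf4 ⟨432,19,19,16,13⟩ 58
    (.chk false 1024)
    (by decide +kernel)

theorem p0_4_16 : Ok2 par f4 ((((((((Box3.unit.r 1).r 0).l 1).r 0).r 0).r 1).l 2).r 2) (selB2 0 (selB2 0 (selB2 0 (selB2 0 C0 4679519720570879) 49956) 432) 17) :=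
  Ok2.run hw hf4 ⟨409,19,19,16,13⟩ 58
    (.chk false 1024)
    (by decide +kernel)

theorem p0_4_17 : Ok2 par f4 (((((((Box3.unit.r 1).r 0).l 1).r 0).r 0).r 1).r 2) (selB2 0 (selB2 0 (selB2 0 (selB2 0 C0 4679519720570879) 49956) 432) 17) :=
  Ok2.run hw hf4 ⟨397,19,19,16,13⟩ 58
    (.chk false 1024)
    (by decide +kernel)

theorem p0_4_18 : Ok2 par f4 ((((((Box3.unit.r 1).r 0).l 1).r 0).r 0).r 1) (selB2 1 (selB2 0 (selB2 0 (selB2 0 C0 4679519720570879) 49956) 432) 17) :=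
  Ok2.run hw hf4 ⟨375,19,19,16,13⟩ 58
    (.chk false 256)
    (by decide +kernel)

theorem p0_4_19 : Ok2 par f4 ((((((Box3.unit.r 1).r 0).l 1).r 0).r 0).l 1) (selB2 0 (selB2 0 (selB2 0 C0 4679519720570879) 49956) 432) :=
  Ok2.run hw hf4 ⟨370,19,19,16,13⟩ 58
    (.chk false 1024)
    (by decide +kernel)

theorem p0_4_20 : Ok2 par f4 (((((Box3.unit.r 1).r 0).l 1).r 0).l 0) (selB2 0 (selB2 0 (selB2 0 C0 4679519720570879) 49956) 432) :=
  Ok2.run hw hf4 ⟨351,19,19,16,13⟩ 58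
    (.chk false 1024)
    (by decide +kernel)

theorem p0_4_21 : Ok2 par f4 ((((Box3.unit.r 1).r 0).l 1).l 0) (selB2 0 (selB2 0 (selB2 0 C0 4679519720570879) 49956) 432) :=
  Ok2.run hw hf4 ⟨326,19,19,16,13⟩ 58
    (.chk false 1024)
    (by decide +kernel)

theorem p0_4_22 : Ok2 par f4 (((Box3.unit.r 1).r 0).l 1) (selB2 1 (selB2 0 (selB2 0 C0 4679519720570879) 49956) 432) :=
  Ok2.run hw hf4 ⟨313,19,19,16,13⟩ 58
    (.chk false 2048)
    (by decide +kernel)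

theorem p0_4_23 : Ok2 par f4 (((Box3.unit.r 1).r 0).r 1) (selB2 0 (selB2 0 C0 4679519720570879) 49956) :=
  Ok2.run hw hf4 ⟨321,19,19,16,13⟩ 58
    (.chk false 2048)
    (by decide +kernel)

theorem p0_4_24 : Ok2 par f4 ((Box3.unit.r 1).l 0) (selB2 0 (selB2 0 C0 4679519720570879) 49956) :=
  Ok2.run hw hf4 ⟨299,19,19,16,13⟩ 58
    (.chk false 2048)
    (by decide +kernel)

theorem p0_4_25 : Ok2 par f4 (Box3.unit.r 1) (selB2 1 (selB2 0 C0 4679519720570879) 49956) :=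
  Ok2.run hw hf4 ⟨271,19,19,16,13⟩ 58
    (.chk false 2048)
    (by decide +kernel)

theorem p0_4_26 : Ok2 par f4 Box3.unit (selB2 1 C0 4679519720570879) :=
  Ok2.run hw hf4 ⟨242,19,19,16,13⟩ 58
    (.chk false 512)
    (by decide +kernel)

theorem p0_5_0 : Ok2 par f5 (((((((Box3.unit.r 1).r 0).r 0).r 1).r 0).l 1).l 1) (selB2 0 (selB2 0 (selB2 0 C0 22654335946719231) 4416) 511) :=
  Ok2.run hw hf5 ⟨515,19,19,13,13⟩ 58
    (.split 0 (.chk false 0) (.split 2 (.split 1 (.split 0 (.chk false 0) (.split 2 (.split 0 (.chk false 0) (.split 1 (.chk false 0) (.chk false 0))) (.chk false 0))) (.chk false 0)) (.chk false 0)))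
    (by decide +kernel)

theorem p0_5_1 : Ok2 par f5 (((((((Box3.unit.r 1).r 0).r 0).r 1).r 0).l 1).r 1) (selB2 0 (selB2 0 (selB2 0 C0 22654335946719231) 4416) 511) :=
  Ok2.run hw hf5 ⟨394,19,19,13,13⟩ 58
    (.chk false 0)
    (by decide +kernel)

theorem p0_5_2 : Ok2 par f5 ((((((Box3.unit.r 1).r 0).r 0).r 1).r 0).r 1) (selB2 0 (selB2 0 (selB2 0 C0 22654335946719231) 4416) 511) :=
  Ok2.run hw hf5 ⟨379,19,19,13,13⟩ 58
    (.chk false 0)
    (by decide +kernel)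

theorem p0_5_3 : Ok2 par f5 (((((Box3.unit.r 1).r 0).r 0).r 1).l 0) (selB2 0 (selB2 0 (selB2 0 C0 22654335946719231) 4416) 511) :=
  Ok2.run hw hf5 ⟨355,19,19,13,13⟩ 58
    (.chk false 0)
    (by decide +kernel)

theorem p0_5_4 : Ok2 par f5 ((((Box3.unit.r 1).r 0).r 0).r 1) (selB2 1 (selB2 0 (selB2 0 C0 22654335946719231) 4416) 511) :=
  Ok2.run hw hf5 ⟨339,19,19,13,13⟩ 58
    (.chk false 2048)
    (by decide +kernel)

theorem p0_5_5 : Ok2 par f5 ((((Box3.unit.r 1).r 0).r 0).l 1) (selB2 0 (selB2 0 C0 22654335946719231) 4416) :=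
  Ok2.run hw hf5 ⟨371,19,19,13,13⟩ 58
    (.part 1015 (.chk false 2048) (.split 0 (.chk false 569) (.split 1 (.chk false 569) (.chk false 569))))
    (by decide +kernel)

theorem p0_5_6 : Ok2 par f5 (((Box3.unit.r 1).r 0).l 0) (selB2 0 (selB2 0 C0 22654335946719231) 4416) :=
  Ok2.run hw hf5 ⟨309,19,19,13,13⟩ 58
    (.chk false 2048)
    (by decide +kernel)

theorem p0_5_7 : Ok2 par f5 ((Box3.unit.r 1).l 0) (selB2 0 (selB2 0 C0 22654335946719231) 4416) :=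
  Ok2.run hw hf5 ⟨295,19,19,13,13⟩ 58
    (.chk false 2048)
    (by decide +kernel)

theorem p0_5_8 : Ok2 par f5 (Box3.unit.r 1) (selB2 1 (selB2 0 C0 22654335946719231) 4416) :=
  Ok2.run hw hf5 ⟨267,19,19,13,13⟩ 58
    (.chk false 0)
    (by decide +kernel)

theorem p0_5_9 : Ok2 par f5 (Box3.unit.l 1) (selB2 0 C0 22654335946719231) :=
  Ok2.run hw hf5 ⟨267,19,19,13,13⟩ 58
    (.chk false 2048)
    (by decide +kernel)

theorem p0_5_10 : Ok2 par f5 Box3.unit (selB2 1 C0 22654335946719231) :=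
  Ok2.run hw hf5 ⟨238,19,19,13,13⟩ 58
    (.chk false 2048)
    (by decide +kernel)

theorem p0_6_0 : Ok2 par f6 Box3.unit C0 :=
  Ok2.run hw hf6 ⟨238,19,19,16,13⟩ 58
    (.chk false 2048)
    (by decide +kernel)

theorem p0_7_0 : Ok2 par f7 (((Box3.unit.l 1).r 0).l 1) (selB2 1 (selB2 0 (selB2 0 (selB2 0 C0 4504336728715263) 33506550) 20) 56) :=
  Ok2.run hw hf7 ⟨318,19,19,16,13⟩ 58
    (.chk false 0)
    (by decide +kernel)


end Crest.Agent.R163.P0
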